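import Vale.Agent.P218.H333.EqNear

/-! Convergence of the rescaled flow, for heights with an extra property. -/

open MeasureTheory Set Filter Topology Metric
open scoped ENNReal NNReal RealInnerProductSpace CompactlySupported

namespace Vale.Agent.P218.H333

open Vale.Agent.P214 (IntegralVarifold proj divAlong IsTestField)
open Vale.Agent.P218.H313

set_option linter.unusedSectionVars false
set_option linter.unusedVariables false

variable {E : Type*} [NormedAddCommGroup E] [InnerProductSpace ℝ E] [FiniteDimensional ℝ E]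
  [MeasurableSpace E] [BorelSpace E]
variable {m : ℕ} {N : ℝ → Measure E} {T : ℝ → E → Submodule ℝ E} {H : ℝ → E → E} {s₀ : ℝ}
variable {P : Type*} [NormedAddCommGroup P] [NormedSpace ℝ P]
  {V : P → E → ℝ} {V' : P → P →ₗ[ℝ] (E → ℝ)} {r c K : ℝ} {q : ℕ} {κ : Measure E}

/-- **convergence of the rescaled flow** near a nondegenerate shrinker -/
theorem RF.converge_pr (hm : 0 < m) (hE : Module.finrank ℝ E = m + 1) [FiniteDimensional ℝ P]
    (h : RF m N T H s₀) (hslow : Slow N s₀) (hF : Fam m V V' r c K q)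
    [IsLocallyFiniteMeasure κ] (hV0 : ∀ᵐ x ∂κ, V 0 x = 0)
    (hκ : ∀ x : E, ∀ c > om m, ∀ᶠ r in 𝓝[>] (0 : ℝ), (∫ y, H313.ker (r⁻¹ • (y - x)) ∂κ) / r ^ m ≤ c)
    (hseq : ∃ τ : ℕ → ℝ, Tendsto τ atTop atTop ∧ WeakTendsto (fun i => N (τ i)) κ)
    (hinj : ∀ b : P, (∀ᵐ x ∂κ, V' 0 b x = 0) → b = 0)
    {Pr : (E → ℝ) → Prop} (hPr : NearPr m N T H V r κ Pr)
    (hnd : ∀ u : E → ℝ, AEStronglyMeasurable u κ → Integrable (fun x => u x ^ 2 * rho x) κ →
      (∀ ζ : E → ℝ, ContDiff ℝ (⊤ : ℕ∞) ζ → HasCompactSupport ζ →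
        ∫ x, u x * jac (V 0) ζ x * rho x ∂κ = 0) → Pr u → ∃ b, u =ᵐ[κ] V' 0 b)
    {φ : E → ℝ} (hφ : ContDiff ℝ 2 φ) (hφc : HasCompactSupport φ) :
    ∃ L : ℝ, Tendsto (fun s => ∫ x, φ x ∂(N s)) atTop (𝓝 L) := by
  obtain ⟨τ, hτ, hτκ⟩ := hseq
  -- the indices near `τ`
  have hidx : ∀ {h₀ : ℝ}, 0 < h₀ → ∀ {t : ℕ → ℝ},
      (∀ k, s₀ + k * h₀ ≤ t k ∧ t k ≤ s₀ + (k + 1) * h₀) → ∀ s, s₀ ≤ s →
        |t ⌊(s - s₀) / h₀⌋₊ - s| ≤ h₀ := by
    intro h₀ hh t ht s hs
    set k := ⌊(s - s₀) / h₀⌋₊ with hk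
    have h1 : (k : ℝ) ≤ (s - s₀) / h₀ := Nat.floor_le (div_nonneg (by linarith) hh.le)
    have h2 : (s - s₀) / h₀ < k + 1 := Nat.lt_floor_add_one _
    rw [le_div_iff₀ hh] at h1
    rw [div_lt_iff₀ hh] at h2
    obtain ⟨h3, h4⟩ := ht k
    rw [abs_le]
    constructor <;> nlinarith
  have hidx2 : ∀ {h₀ : ℝ}, 0 < h₀ → Tendsto (fun s : ℝ => ⌊(s - s₀) / h₀⌋₊) atTop atTop := by
    intro h₀ hh
    refine tendsto_nat_floor_atTop.comp ?_
    exact (tendsto_atTop_add_const_right _ (-s₀) tendsto_id).atTop_div_const hh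
  -- the filter is nontrivial
  have hne : (nearF m N T H κ).NeBot := by
    obtain ⟨t, ht, htg, -⟩ := h.exists_times one_pos
    have hk : Tendsto (fun i => ⌊(τ i - s₀) / 1⌋₊) atTop atTop := (hidx2 one_pos).comp hτ
    have hw : WeakTendsto (fun i => N (t ⌊(τ i - s₀) / 1⌋₊)) κ := by
      refine hslow.weakTendsto_shift hτ one_pos ?_ hτκ
      filter_upwards [hτ.eventually_ge_atTop s₀] with i hi
      exact hidx one_pos ht _ hi
    have htt : Tendsto t atTop atTop := by
      refine tendsto_atTop_mono (fun k => (ht k).1) ?_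
      refine tendsto_atTop_add_const_left _ _ ?_
      exact tendsto_natCast_atTop_atTop.atTop_mul_const one_pos
    have := tendsto_nearF (m := m) (N := N) (T := T) (H := H) (κ := κ)
      (t := fun i => t ⌊(τ i - s₀) / 1⌋₊) (l := atTop) (htt.comp hk)
      (Eventually.of_forall fun i => htg _) (fun φ h1 h2 => hw φ h1 h2)
    exact this.neBot
  obtain ⟨r₁, hr₁, lam, hlam, C₀, hC₀, hgood⟩ := RF.exists_goodAt_pr hm hE h hF hV0 hκ hinj hPr hnd
  obtain ⟨δ, hδ, hchain⟩ := h.exists_chain hE hF hr₁ hlam hC₀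
  obtain ⟨t, ht, htg, htd⟩ := h.exists_times (half_pos hδ)
  set h₀ := δ / 2 with hh₀
  have hh : 0 < h₀ := half_pos hδ
  have htt : Tendsto t atTop atTop := by
    refine tendsto_atTop_mono (fun k => (ht k).1) ?_
    refine tendsto_atTop_add_const_left _ _ ?_
    exact tendsto_natCast_atTop_atTop.atTop_mul_const hh
  have ht0 : ∀ k, s₀ ≤ t k := fun k => by
    have : (0 : ℝ) ≤ k * h₀ := by positivity
    linarith [(ht k).1]
  have htm : ∀ k, t k ≤ t (k + 1) := fun k => by
    have h1 := (ht (k + 1)).1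
    push_cast at h1
    exact (ht k).2.trans h1
  have htδ : ∀ k, t (k + 1) ≤ t k + δ := fun k => by
    have h1 := (ht (k + 1)).2
    have h2 := (ht k).1
    push_cast at h1
    have h3 : δ = 2 * h₀ := by rw [hh₀]; ring
    rw [h3]; nlinarith
  -- the chain estimate for good times
  set X : ℕ → Prop := fun k => ∃ a : P, GoodAt m N T H V V' r₁ lam C₀ (t k) a with hX
  have hsmall : ∀ φ : E → ℝ, ContDiff ℝ 2 φ → HasCompactSupport φ → ∀ ε > 0, ∃ k₀ : ℕ, ∀ k K',
      k₀ ≤ k → k ≤ K' → (∀ j, k ≤ j → j ≤ K' → X j) →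
        |∫ x, φ x ∂(N (t K')) - ∫ x, φ x ∂(N (t k))| ≤ ε := by
    intro φ hφ hφc ε hε
    obtain ⟨C, hC, hb⟩ := hchain (fun x => φ x * Real.exp (‖x‖ ^ 2 / 4))
      (hφ.mul contDiff_rho_inv) hφc.mul_right
    obtain ⟨k₀, hk₀⟩ := h.exists_sum_small hh ht htd (ε := ε / (C + 1)) (by positivity)
    refine ⟨k₀, fun k K' hk hkK hj => ?_⟩
    choose! a ha using hX ▸ hj
    have h1 := hb t a ht0 htm htδ k K' hkK (fun j h1 h2 => ha j h1 h2)
    rw [int_div_rho, int_div_rho] at h1
    refine h1.trans ((mul_le_mul_of_nonneg_left (hk₀ k K' hk hkK) hC).trans ?_)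
    rw [mul_div_assoc', div_le_iff₀ (by positivity)]
    nlinarith
  -- eventually all the times are good
  have hall : ∀ᶠ k in atTop, X k := by
    by_contra hcon
    rw [not_eventually, frequently_atTop] at hcon
    set k : ℕ → ℕ := fun i => ⌊(τ i - s₀) / h₀⌋₊ with hk
    have hkt : Tendsto k atTop atTop := (hidx2 hh).comp hτ
    have hkτ : ∀ᶠ i in atTop, |t (k i) - τ i| ≤ h₀ := by
      filter_upwards [hτ.eventually_ge_atTop s₀] with i hi
      exact hidx hh ht _ hi
    have hkw : WeakTendsto (fun i => N (t (k i))) κ := hslow.weakTendsto_shift hτ hh hkτ hτκ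
    have hkX : ∀ᶠ i in atTop, X (k i) :=
      (tendsto_nearF (m := m) (N := N) (T := T) (H := H) (κ := κ)
        (t := fun i => t (k i)) (l := atTop) (htt.comp hkt)
        (Eventually.of_forall fun i => htg _) (fun φ h1 h2 => hkw φ h1 h2)).eventually hgood
    classical
    have hex : ∀ i, ∃ L, k i ≤ L ∧ ¬ X L := fun i => hcon (k i)
    set L : ℕ → ℕ := fun i => Nat.find (hex i) with hL
    have hL1 : ∀ i, k i ≤ L i := fun i => (Nat.find_spec (hex i)).1
    have hL2 : ∀ i, ¬ X (L i) := fun i => (Nat.find_spec (hex i)).2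
    have hL3 : ∀ i j, k i ≤ j → j < L i → X j := by
      intro i j h1 h2
      have := Nat.find_min (hex i) h2
      push Not at this
      exact this h1
    have hlt : ∀ᶠ i in atTop, k i < L i := by
      filter_upwards [hkX] with i hi
      refine lt_of_le_of_ne (hL1 i) fun he => hL2 i ?_
      rw [← he]; exact hi
    have hLt : Tendsto L atTop atTop := tendsto_atTop_mono hL1 hkt
    have hLt' : Tendsto (fun i => L i - 1) atTop atTop := (tendsto_sub_atTop_nat 1).comp hLt
    -- the times before the first failure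
    have hw1 : WeakTendsto (fun i => N (t (L i - 1))) κ := by
      refine weakTendsto_of_contDiff hslow (fun i => ht0 _) fun φ hφ hφc => ?_
      refine tendsto_of_approx fun ε hε => ?_
      obtain ⟨k₀, hk₀⟩ := hsmall φ hφ hφc ε hε
      refine ⟨fun i => ∫ x, φ x ∂(N (t (k i))), ∫ x, φ x ∂κ, hkw φ hφ.continuous hφc, ?_,
        by simpa using hε.le⟩
      filter_upwards [hlt, hkt.eventually_ge_atTop k₀] with i h1 h2
      exact hk₀ (k i) (L i - 1) h2 (by omega) fun j h3 h4 => hL3 i j h3 (by omega)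
    have hw2 : WeakTendsto (fun i => N (t (L i))) κ := by
      refine hslow.weakTendsto_shift (htt.comp hLt') hδ ?_ hw1
      filter_upwards [hlt] with i hi
      have e : L i - 1 + 1 = L i := by omega
      have h1 := htm (L i - 1)
      have h2 := htδ (L i - 1)
      rw [e] at h1 h2
      simp only [Function.comp]
      rw [abs_le]
      constructor <;> linarith
    have hbad : ∀ᶠ i in atTop, X (L i) :=
      (tendsto_nearF (m := m) (N := N) (T := T) (H := H) (κ := κ)
        (t := fun i => t (L i)) (l := atTop) (htt.comp hLt)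
        (Eventually.of_forall fun i => htg _) (fun φ h1 h2 => hw2 φ h1 h2)).eventually hgood
    obtain ⟨i, hi⟩ := hbad.exists
    exact hL2 i hi
  obtain ⟨k₁, hk₁⟩ := eventually_atTop.1 hall
  -- the sequence of integrals is Cauchy
  have hcau : CauchySeq fun k => ∫ x, φ x ∂(N (t k)) := by
    rw [Metric.cauchySeq_iff]
    intro ε hε
    obtain ⟨k₀, hk₀⟩ := hsmall φ hφ hφc (ε / 2) (half_pos hε)
    refine ⟨max k₀ k₁, fun a ha b hb => ?_⟩
    have key : ∀ a b, max k₀ k₁ ≤ a → a ≤ b →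
        |∫ x, φ x ∂(N (t b)) - ∫ x, φ x ∂(N (t a))| < ε := by
      intro a b ha hab
      refine lt_of_le_of_lt (hk₀ a b ((le_max_left _ _).trans ha) hab fun j h1 h2 =>
        hk₁ j ((le_max_right _ _).trans (ha.trans h1))) (by linarith)
    rw [Real.dist_eq]
    rcases le_total a b with hab | hab
    · rw [abs_sub_comm]; exact key a b ha hab
    · exact key b a hb hab
  obtain ⟨L, hL⟩ := cauchySeq_tendsto_of_complete hcau
  refine ⟨L, tendsto_of_approx fun ε hε => ?_⟩
  obtain ⟨S, hS0, hS⟩ := hslow.slow φ (hφ.of_le (by norm_num)) hφc h₀ hh ε hε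
  refine ⟨fun s => ∫ x, φ x ∂(N (t ⌊(s - s₀) / h₀⌋₊)), L, hL.comp (hidx2 hh), ?_,
    by simpa using hε.le⟩
  filter_upwards [eventually_ge_atTop (S + h₀)] with s hs
  have h1 := hidx hh ht s (by linarith)
  rw [abs_le] at h1
  rcases le_total (t ⌊(s - s₀) / h₀⌋₊) s with h3 | h3
  · exact hS _ _ (by linarith) h3 (by linarith)
  · rw [abs_sub_comm]
    exact hS _ _ (by linarith) h3 (by linarith)

end Vale.Agent.P218.H333
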